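import Vale.Agent.P146.U.H393.Ex2

/-!
# P146, upper half, EX2: the main theorem `ex2_of : KStar β → CgfU β → Ex2Out β`
-/

open MeasureTheory ProbabilityTheory Filter

namespace Vale.Agent.P146.U

open Vale.Agent.P146.U.SelK Vale.Agent.P146.U.H393

namespace H393

variable {n : ℕ} {β x b T a M : ℝ}

/-- the ratio `4^(p/c0)` of the windows -/
noncomputable def LK : ℝ := (4 : ℝ) ^ (((6 : ℕ) : ℝ) / (1 / 100))

lemma LK_one : 1 ≤ LK := Real.one_le_rpow (by norm_num) (by positivity)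

lemma LK_pos : 0 < LK := lt_of_lt_of_le one_pos LK_one

lemma near_down' (hn : 0 < n) (hx : 0 < x) {T M : ℝ} (ha : Om x 6 (1 / 100) 1 a T)
    (hM : M / 2 * H n x 6 (1 / 100) a T ≤ Ek n β x a T) (hM0 : 0 < M)
    (hall : ∀ b T', Om x 6 (1 / 100) 1 b T' → Ek n β x b T' ≤ M * H n x 6 (1 / 100) b T') :
    Ek n β x a (T / LK) ≤ 1 / 2 * Ek n β x a T :=
  near_down (p := 6) (c0 := 1 / 100) (Nat.cast_pos.2 hn) hx (by norm_num) (by norm_num)
      (fun _ _ hb _ _ => Ek_conv hx hb) ha hM hM0 hall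

/-- the selected point: inside the caps, regular, with growth -/
theorem sel_reg {C0 M₁ : ℝ} (hn : 0 < n) (hx : 0 < x) (hx1 : x ≤ 1) (hM₁ : 0 < M₁)
    (hM₁0 : 2 * C0 ≤ M₁)
    (hcap : ∀ b T : ℝ, x ≤ b → 0 < T → T ≤ 1 →
      ¬((n : ℝ) ^ (-(4 / 5) : ℝ) ≤ T ∧ T ≤ (n : ℝ) ^ (-(1 / 10) : ℝ) ∧
        b ≤ (n : ℝ) ^ (-(1 / 20) : ℝ)) → Ek n β x b T ≤ C0 * H n x 6 (1 / 100) b T) :
    (∀ b T, Om x 6 (1 / 100) 1 b T → Ek n β x b T ≤ M₁ * H n x 6 (1 / 100) b T) ∨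
      ∃ a T M, Om x 6 (1 / 100) 1 a T ∧ M₁ < M ∧ M / 2 * H n x 6 (1 / 100) a T ≤ Ek n β x a T ∧
        ((n : ℝ) ^ (-(4 / 5) : ℝ) ≤ T ∧ T ≤ (n : ℝ) ^ (-(1 / 10) : ℝ) ∧
          a ≤ (n : ℝ) ^ (-(1 / 20) : ℝ)) ∧
        (∀ K N : ℝ, 1 ≤ K → 1 ≤ N → K * T ≤ 1 →
          Ek n β x (N * a) (K * T) ≤ 2 * N ^ 6 * K ^ (1 / 100 : ℝ) * Ek n β x a T) ∧
        Ek n β x a (T / LK) ≤ 1 / 2 * Ek n β x a T := by
  have hn' : (0 : ℝ) < n := Nat.cast_pos.2 hn
  rcases sel (E := Ek n β x) (p := 6) (c0 := 1 / 100) (Tm := 1) hn' hx hM₁ (Ek_fin hx hx1) with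
    h | ⟨a, T, M, h1, h2, h3, h4⟩
  · exact Or.inl h
  refine Or.inr ⟨a, T, M, h1, h2, h3, ?_, ?_, ?_⟩
  · by_contra hcon
    have h5 := hcap a T h1.2.2.1 h1.1 h1.2.1 hcon
    have h6 := H_pos (n := (n : ℝ)) (p := 6) (c0 := 1 / 100) hn' hx (hx.trans_le h1.2.2.1) h1.1
    have h7 : M / 2 * H n x 6 (1 / 100) a T ≤ C0 * H n x 6 (1 / 100) a T := h3.trans h5
    have h8 := le_of_mul_le_mul_right h7 h6
    linarith
  · intro K N hK hN hKT
    exact near_up hn' hx (by norm_num) h1 h3 (hM₁.trans h2) h4 hN hK hKT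
  · exact near_down' hn hx h1 h3 (hM₁.trans h2) h4

/-- the domain of `SelK` from the condition of `Ex2Strong` -/
lemma om_of (hx : 0 < x) (hT : 0 < T) (hT1 : T ≤ 1) (hxb : x ≤ b)
    (hb : x * (T / x ^ 2) ^ (-(1 / 600) : ℝ) ≤ b) : Om x 6 (1 / 100) 1 b T := by
  refine ⟨hT, hT1, hxb, ?_⟩
  have hs : 0 < T / x ^ 2 := by positivity
  have h1 := mul_le_mul_of_nonneg_right hb (Real.rpow_pos_of_pos hs (1 / 600)).le
  rw [mul_assoc, ← Real.rpow_add hs] at h1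
  have e : (-(1 / 600) : ℝ) + 1 / 600 = 0 := by norm_num
  rw [e, Real.rpow_zero, mul_one] at h1
  have e2 : (1 / 100 : ℝ) / ((6 : ℕ) : ℝ) = 1 / 600 := by norm_num
  rw [e2]
  exact h1

end H393

/-- **EX2: the K-side**, strong form. -/
theorem ex2_strong {β : ℝ} (hK : KStar β) (hC : CgfU β) : Ex2Strong β := by
  obtain ⟨CK, MK, nK, hCK, hMK, hK⟩ := hK (2 * 4 ^ 6) LK 5 (1 / 100) (by norm_num)
    LK_one (by norm_num) (by norm_num) (by norm_num)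
  obtain ⟨C0, hC0, n0, hcap⟩ := caps hC
  obtain ⟨CK', hCK'⟩ : ∃ CK', CK' = max CK 1 := ⟨_, rfl⟩
  obtain ⟨M₁, hM₁⟩ : ∃ M₁, M₁ = 2 * C0 + 2 * MK + 8 * CK' ^ 2 := ⟨_, rfl⟩
  have hCK1 : 1 ≤ CK' := by rw [hCK']; exact le_max_right _ _
  have hM₁0 : 0 < M₁ := by rw [hM₁]; positivity
  refine ⟨M₁, 1 / 600, max (max n0 nK) 1, hM₁0, by norm_num, le_rfl, fun n hn x b T hx hx1 hxb hT hT1 hb => ?_⟩
  have hn0' : n0 ≤ n := ((le_max_left _ _).trans (le_max_left _ _)).trans hn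
  have hnK : nK ≤ n := ((le_max_right _ _).trans (le_max_left _ _)).trans hn
  have hn1 : 1 ≤ n := (le_max_right _ _).trans hn
  have hnn : (1 : ℝ) ≤ n := by exact_mod_cast hn1
  have hnp : (0 : ℝ) < n := by linarith
  have hx0 : 0 < x := lt_of_lt_of_le (Real.rpow_pos_of_pos hnp _) hx
  have hxone : x ≤ 1 := hx1.trans (Real.rpow_le_one_of_one_le_of_nonpos hnn (by norm_num))
  have hx15 : (n : ℝ) ^ (-(1 / 5) : ℝ) ≤ x :=
    le_trans (Real.rpow_le_rpow_of_exponent_le hnn (by norm_num)) hx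
  have hnx : 1 ≤ (n : ℝ) * x ^ 6 := by
    have h1 := x_pow_ge hnp hx (r := 6) (by norm_num)
    have h2 : (n : ℝ) ^ (-(6 / 6) : ℝ) = (n : ℝ)⁻¹ := by
      rw [show (-(6 / 6) : ℝ) = -1 by norm_num, Real.rpow_neg_one]
    rw [h2] at h1
    have h3 : x ^ (6 : ℝ) = x ^ 6 := by exact_mod_cast Real.rpow_natCast x 6
    rw [h3] at h1
    calc (1 : ℝ) = n * (n : ℝ)⁻¹ := (mul_inv_cancel₀ hnp.ne').symm
      _ ≤ n * x ^ 6 := by gcongr
  have key : ∀ b T, Om x 6 (1 / 100) 1 b T → Ek n β x b T ≤ M₁ * H n x 6 (1 / 100) b T := by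
    rcases sel_reg (n := n) (β := β) (C0 := C0) (M₁ := M₁) hn1 hx0 hxone hM₁0
      (by rw [hM₁]; nlinarith [sq_nonneg CK'])
      (fun b T hb hT hT1 hc => hcap n hn0' x b T hx hx1 hb hT hT1 hc) with h | h
    · exact h
    obtain ⟨a, T', M, h1, h2, h3, ⟨c1, c2, c3⟩, h5, h6⟩ := h
    exfalso
    obtain ⟨o1, o2, o3, -⟩ := id h1
    have ha0 : 0 < a := hx0.trans_le o3
    have hE0 : 0 ≤ Ek n β x a T' := Ek_nonneg hx0 o3
    have hTL : T' / LK ≤ 1 := (div_le_self o1.le LK_one).trans o2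
    have hTL0 : 0 < T' / LK := div_pos o1 LK_pos
    -- values at the trivial exponent
    have self : ∀ t, 0 ≤ t → t ≤ 1 → P2 n β x t x = P2 n β x T' x := fun t h0 h1' =>
      AP.P2_self_eq hx0 h0 h1' o1.le o2
    have a4 : P2 n β x T' (4 * a) - P2 n β x T' x ≤ 2 * 4 ^ 6 * Ek n β x a T' := by
      have h7 := h5 1 4 le_rfl (by norm_num) (by rw [one_mul]; exact o2)
      rw [one_mul, Real.one_rpow, mul_one] at h7
      exact h7
    have aL : P2 n β x (T' / LK) a - P2 n β x T' x ≤ 1 / 2 * Ek n β x a T' := by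
      rw [← self _ hTL0.le hTL]
      exact h6
    have gr : ∀ K N : ℝ, 1 ≤ K → 1 ≤ N → K * T' ≤ (n : ℝ) ^ (-(1 / 20) : ℝ) →
        P2 n β x (K * T') (N * a) - P2 n β x T' x ≤
          2 * 4 ^ 6 * N ^ (1 + 5 : ℝ) * K ^ (1 / 100 : ℝ) * Ek n β x a T' := by
      intro K N hK1 hN1 hKT
      have hKT1 : K * T' ≤ 1 :=
        hKT.trans (Real.rpow_le_one_of_one_le_of_nonpos hnn (by norm_num))
      have hKT0 : 0 ≤ K * T' := by positivity
      have h7 := h5 K N hK1 hN1 hKT1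
      rw [← self _ hKT0 hKT1]
      have e6 : N ^ (1 + 5 : ℝ) = N ^ 6 := by
        rw [show (1 + 5 : ℝ) = ((6 : ℕ) : ℝ) by norm_num, Real.rpow_natCast]
      rw [e6]
      refine h7.trans ?_
      have h8 : 0 ≤ N ^ 6 * K ^ (1 / 100 : ℝ) * Ek n β x a T' := by positivity
      nlinarith
    have act : MK ≤ x * Ek n β x a T' := by
      have h7 := h1.action hx0 (by norm_num)
      have h8 : M / 2 ≤ x * (M / 2 * H n x 6 (1 / 100) a T') := by
        have e : x * (M / 2 * H n x 6 (1 / 100) a T') =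
            M / 2 * ((n * x ^ 6) * ((a / x) ^ 6 * (T' / x ^ 2) ^ (1 / 100 : ℝ))) := by
          unfold H
          ring
        rw [e]
        refine le_mul_of_one_le_right (by linarith) ?_
        exact one_le_mul_of_one_le_of_one_le hnx h7
      have h9 := mul_le_mul_of_nonneg_left h3 hx0.le
      have h10 : 2 * MK ≤ M₁ := by rw [hM₁]; nlinarith [sq_nonneg CK']
      linarith
    obtain ⟨f1, f2⟩ := hK n hnK x a T' (Ek n β x a T') hx15 o3 c3 c1 c2 rfl a4 aL gr act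
    have hB0 : 0 ≤ a ^ 2 + 1 / √(n * T') := by positivity
    have g1 : Ek n β x a T' ≤ CK' * (a * n * T') * (a ^ 2 + 1 / √(n * T')) := by
      refine f1.trans ?_
      have : CK ≤ CK' := by rw [hCK']; exact le_max_left _ _
      gcongr
    have g2 : T' ≤ CK' * (a ^ 2 + 1 / √(n * T')) := by
      refine f2.trans ?_
      have : CK ≤ CK' := by rw [hCK']; exact le_max_left _ _
      gcongr
    have fin := kfin hnp hx0 hnx o3 o1 hCK1 (hM₁0.trans h2) h3 g1 g2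
    rw [hM₁] at h2
    linarith
  have h1 := key b T (om_of hx0 hT hT1 hxb hb)
  rw [H_eq hx0] at h1
  exact h1

/-- **EX2: the K-side.** -/
theorem ex2_of {β : ℝ} (hK : KStar β) (hC : CgfU β) : Ex2Out β := by
  obtain ⟨C, η, n0, hC0, hη, -, h⟩ := ex2_strong hK hC
  refine ⟨C, max n0 1, hC0, fun n hn x b T hx hx1 hxb hT hT1 => ?_⟩
  have hn1 : (1 : ℝ) ≤ n := by exact_mod_cast (le_max_right _ _).trans hn
  have hx0 : 0 < x := lt_of_lt_of_le (Real.rpow_pos_of_pos (by linarith) _) hx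
  have hT0 : 0 < T := lt_of_lt_of_le (by positivity) hT
  refine h n ((le_max_left _ _).trans hn) x b T hx hx1 hxb hT0 (by linarith) ?_
  have h1 : 1 ≤ T / x ^ 2 := (one_le_div (by positivity)).2 hT
  exact (mul_le_of_le_one_right hx0.le
    (Real.rpow_le_one_of_one_le_of_nonpos h1 (by linarith))).trans hxb

end Vale.Agent.P146.U
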