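import Vale.Agent.P146.U.H393.Ex2a
import Vale.Agent.P146.U.Ex2S

/-!
# P146, upper half, EX2: the K-side

`ex2_of : KStar β → CgfU β → Ex2Out β` (and `ex2_strong`): selection of a near maximiser of
`(P2 (b, T) - P2 (x)) / (n x⁵ (b/x)⁶ (T/x²)^(1/100))` on `b ≥ x (T/x²)^(-1/600)`; it is inside the
caps by `caps`, it is regular with growth by `SelK`, and `KStar` bounds its size.
-/

open MeasureTheory ProbabilityTheory Filter

namespace Vale.Agent.P146.U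

open Vale.Agent.P146.U.SelK Vale.Agent.P146.U.H393

/-- **Output of the K-side (EX2)**, strong form: for all `0 < T ≤ 1`, all `b ≥ x (T/x²)^(-η)`,
`b ≥ x`. -/
def Ex2Strong (β : ℝ) : Prop := ∃ C η : ℝ, ∃ n0 : ℕ, 0 < C ∧ 0 < η ∧ η ≤ 1 / 600 ∧ ∀ n : ℕ, n0 ≤ n →
  ∀ x b T : ℝ, (n : ℝ) ^ (-(1 / 6) : ℝ) ≤ x → x ≤ (n : ℝ) ^ (-(1 / 10) : ℝ) → x ≤ b → 0 < T →
    T ≤ 1 → x * (T / x ^ 2) ^ (-η) ≤ b →
    P2 n β x T b - P2 n β x T x ≤ C * (n * x ^ 4 * b * (b / x) ^ 5 * (T / x ^ 2) ^ (1 / 100 : ℝ))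

namespace H393

/-- the increment of the functional -/
noncomputable def Ek (n : ℕ) (β x b T : ℝ) : ℝ := P2 n β x T b - P2 n β x T x

variable {n : ℕ} {β x b T a : ℝ}

lemma Ek_nonneg (hx : 0 < x) (hxb : x ≤ b) : 0 ≤ Ek n β x b T :=
  sub_nonneg.2 (AP.P2_mono_b hx hx hxb)

lemma Ek_triv (hx : 0 < x) (hxb : x ≤ b) (hT : 0 ≤ T) :
    Ek n β x b T ≤ β ^ 2 / 4 * (n * b * T) := by
  have h1 := AP.P2_le_add (n := n) (β := β) hx hxb hT
  have h2 : β ^ 2 / 4 * (n * (b - x) * T) ≤ β ^ 2 / 4 * (n * b * T) := by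
    have : b - x ≤ b := by linarith
    gcongr
  unfold Ek
  linarith

/-- the trivial finiteness of the supremum -/
lemma Ek_fin (hx : 0 < x) (hx1 : x ≤ 1) : ∃ B, ∀ b T, Om x 6 (1 / 100) 1 b T →
    Ek n β x b T ≤ B * H n x 6 (1 / 100) b T := by
  refine ⟨β ^ 2 / 4 / x ^ 4, fun b T h => ?_⟩
  obtain ⟨h1, h2, h3, -⟩ := h
  refine (Ek_triv hx h3 h1.le).trans ?_
  have h4 := H_ge_x4 (n := n) (Nat.cast_nonneg n) hx hx1 h3 h1 h2
  have h5 := mul_le_mul_of_nonneg_left h4 (show 0 ≤ β ^ 2 / 4 / x ^ 4 by positivity)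
  refine le_trans (le_of_eq ?_) h5
  field_simp

/-- convexity -/
lemma Ek_conv (hx : 0 < x) (hxb : x ≤ b) : Ek n β x b T ≤ 1 / 4 * Ek n β x (4 * b) T := by
  have hb : 0 < b := hx.trans_le hxb
  rcases hxb.eq_or_lt with rfl | hlt
  · have h1 : Ek n β x x T = 0 := sub_self _
    rw [h1]
    exact mul_nonneg (by norm_num) (Ek_nonneg hx (by linarith))
  have hd : 0 < 4 * b - x := by linarith
  have e0 : 3 * b / (4 * b - x) + (b - x) / (4 * b - x) = 1 := by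
    rw [← add_div, div_eq_one_iff_eq hd.ne']
    ring
  have h1 := AP.P2_convex (n := n) (β := β) (T := T) hx (p := 3 * b / (4 * b - x))
    (q := (b - x) / (4 * b - x)) (div_nonneg (by linarith) hd.le)
    (div_nonneg (by linarith) hd.le) e0 hx (show 0 < 4 * b by positivity)
  have e1 : 3 * b / (4 * b - x) * x + (b - x) / (4 * b - x) * (4 * b) = b := by
    rw [div_mul_eq_mul_div, div_mul_eq_mul_div, ← add_div, div_eq_iff hd.ne']
    ring
  rw [e1] at h1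
  have e2 : 3 * b / (4 * b - x) = 1 - (b - x) / (4 * b - x) := by linarith
  rw [e2] at h1
  have h2 : (b - x) / (4 * b - x) ≤ 1 / 4 := by
    rw [div_le_iff₀ hd]
    linarith
  have h3 := mul_le_mul_of_nonneg_right h2 (Ek_nonneg (n := n) (β := β) (T := T) hx
    (show x ≤ 4 * b by linarith))
  unfold Ek at h3 ⊢
  linarith

/-- for large `n` the powers of `log n` are small -/
lemma log_small (K : ℝ) : ∀ᶠ n : ℕ in atTop, 1 ≤ Real.log n ∧
    Real.log n ^ K ≤ (n : ℝ) ^ (7 / 60 : ℝ) ∧ Real.log n ^ (502 * K) ≤ (n : ℝ) ^ (7 / 30 : ℝ) := by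
  have h1 := (isLittleO_log_rpow_rpow_atTop K (show (0 : ℝ) < 7 / 60 by norm_num)).bound
    (show (0 : ℝ) < 1 by norm_num)
  have h2 := (isLittleO_log_rpow_rpow_atTop (502 * K) (show (0 : ℝ) < 7 / 30 by norm_num)).bound
    (show (0 : ℝ) < 1 by norm_num)
  have h3 := Real.tendsto_log_atTop.eventually (eventually_ge_atTop (1 : ℝ))
  filter_upwards [tendsto_natCast_atTop_atTop.eventually h1,
    tendsto_natCast_atTop_atTop.eventually h2, tendsto_natCast_atTop_atTop.eventually h3]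
    with n a1 a2 a3
  have hlog : 0 ≤ Real.log n := by linarith
  rw [Real.norm_of_nonneg (by positivity), Real.norm_of_nonneg (by positivity), one_mul] at a1 a2
  exact ⟨a3, a1, a2⟩

/-- `T` large: real numbers -/
lemma s_large {n : ℝ} {K : ℝ} (hn : 1 ≤ n) (hl : 1 ≤ Real.log n)
    (hl2 : Real.log n ^ (502 * K) ≤ n ^ (7 / 30 : ℝ)) (hx : 0 < x)
    (hxb : x ≤ n ^ (-(1 / 6) : ℝ) * Real.log n ^ K) (hT : n ^ (-(1 / 10) : ℝ) ≤ T) :
    Real.log n ^ (5 * K) ≤ (T / x ^ 2) ^ (1 / 100 : ℝ) := by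
  have hn0 : 0 < n := by linarith
  have hl0 : 0 < Real.log n := by linarith
  have h1 : Real.log n ^ (500 * K) ≤ T / x ^ 2 := by
    rw [le_div_iff₀ (by positivity)]
    have h2 : x ^ 2 ≤ n ^ (-(1 / 3) : ℝ) * Real.log n ^ (2 * K) := by
      calc x ^ 2 ≤ (n ^ (-(1 / 6) : ℝ) * Real.log n ^ K) ^ 2 := by gcongr
        _ = n ^ (-(1 / 3) : ℝ) * Real.log n ^ (2 * K) := by
          rw [mul_pow, ← Real.rpow_natCast, ← Real.rpow_natCast, ← Real.rpow_mul hn0.le,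
            ← Real.rpow_mul hl0.le, Nat.cast_ofNat, show -(1 / 6 : ℝ) * 2 = -(1 / 3) by norm_num,
            mul_comm K 2]
    calc Real.log n ^ (500 * K) * x ^ 2 ≤
        Real.log n ^ (500 * K) * (n ^ (-(1 / 3) : ℝ) * Real.log n ^ (2 * K)) := by gcongr
      _ = n ^ (-(1 / 3) : ℝ) * Real.log n ^ (502 * K) := by
        rw [show 502 * K = 500 * K + 2 * K by ring, Real.rpow_add hl0]
        ring
      _ ≤ n ^ (-(1 / 3) : ℝ) * n ^ (7 / 30 : ℝ) := by gcongr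
      _ = n ^ (-(1 / 10) : ℝ) := by rw [← Real.rpow_add hn0]; norm_num
      _ ≤ T := hT
  have h2 := Real.rpow_le_rpow (by positivity) h1 (show (0 : ℝ) ≤ 1 / 100 by norm_num)
  rw [← Real.rpow_mul hl0.le] at h2
  refine le_trans (le_of_eq ?_) h2
  congr 1
  ring

/-- **The caps of the selection region.** -/
theorem caps (h : CgfU β) : ∃ C0 : ℝ, 0 < C0 ∧ ∃ n0 : ℕ, ∀ n : ℕ, n0 ≤ n → ∀ x b T : ℝ,
    (n : ℝ) ^ (-(1 / 6) : ℝ) ≤ x → x ≤ (n : ℝ) ^ (-(1 / 10) : ℝ) → x ≤ b → 0 < T → T ≤ 1 →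
    ¬((n : ℝ) ^ (-(4 / 5) : ℝ) ≤ T ∧ T ≤ (n : ℝ) ^ (-(1 / 10) : ℝ) ∧
      b ≤ (n : ℝ) ^ (-(1 / 20) : ℝ)) →
    Ek n β x b T ≤ C0 * H n x 6 (1 / 100) b T := by
  obtain ⟨C, K, hC, hK, n0, h⟩ := h.ap_max
  obtain ⟨n1, hn1⟩ := eventually_atTop.1 (log_small K)
  refine ⟨β ^ 2 / 4 + C, by positivity, max (max n0 n1) 1, fun n hn x b T hx hx1 hxb hT hT1
    hcap => ?_⟩
  have hn0' : n0 ≤ n := ((le_max_left _ _).trans (le_max_left _ _)).trans hn
  have hn1' : n1 ≤ n := ((le_max_right _ _).trans (le_max_left _ _)).trans hn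
  have hnn : (1 : ℝ) ≤ n := by exact_mod_cast (le_max_right _ _).trans hn
  have hnp : (0 : ℝ) < n := by linarith
  obtain ⟨l1, l2, l3⟩ := hn1 n hn1'
  have hl0 : 0 < Real.log n := by linarith
  have hx0 : 0 < x := lt_of_lt_of_le (Real.rpow_pos_of_pos hnp _) hx
  have hb0 : 0 < b := hx0.trans_le hxb
  have hxone : x ≤ 1 := hx1.trans (Real.rpow_le_one_of_one_le_of_nonpos hnn (by norm_num))
  have hHp : 0 < H n x 6 (1 / 100) b T := H_pos hnp hx0 hb0 hT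
  -- the trivial bound suffices
  have triv : (n : ℝ) * b * T ≤ H n x 6 (1 / 100) b T →
      Ek n β x b T ≤ (β ^ 2 / 4 + C) * H n x 6 (1 / 100) b T := by
    intro h1
    have h2 := Ek_triv (n := n) (β := β) hx0 hxb hT.le
    have h3 := mul_le_mul_of_nonneg_left h1 (show 0 ≤ β ^ 2 / 4 by positivity)
    have h4 : 0 ≤ C * H n x 6 (1 / 100) b T := by positivity
    linarith
  -- the bound by `CgfU` suffices
  set w : ℝ := (n : ℝ) ^ (-(1 / 6) : ℝ) * Real.log n ^ K with hw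
  have big : b ≤ 1 → (n : ℝ) * max b w ^ 5 ≤ H n x 6 (1 / 100) b T →
      Ek n β x b T ≤ (β ^ 2 / 4 + C) * H n x 6 (1 / 100) b T := by
    intro hb1 h1
    have h2 := h n hn0' b hb0 hb1
    have h3 := P2_le_P1 (n := n) (β := β) hx0 hxb hT.le hT1
    have h4 := mF_le_P2 (n := n) (β := β) hx0 hx0 hT.le hT1
    have h5 := mul_le_mul_of_nonneg_left h1 hC.le
    have h6 : 0 ≤ β ^ 2 / 4 * H n x 6 (1 / 100) b T := by positivity
    unfold Ek
    linarith
  rcases le_total 1 b with hb1 | hb1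
  · exact triv (H_ge_b1 hnp.le hx0 hxone hb1 hT hT1)
  rcases le_total T ((n : ℝ) ^ (-(4 / 5) : ℝ)) with hTl | hTl
  · exact triv (H_ge_low hnn hx hxb hT hTl)
  have hwb : w ≤ (n : ℝ) ^ (-(1 / 20) : ℝ) := by
    calc w ≤ (n : ℝ) ^ (-(1 / 6) : ℝ) * (n : ℝ) ^ (7 / 60 : ℝ) := by rw [hw]; gcongr
      _ = _ := by rw [← Real.rpow_add hnp]; norm_num
  rcases le_total b ((n : ℝ) ^ (-(1 / 20) : ℝ)) with hbb | hbb
  · have hTT : (n : ℝ) ^ (-(1 / 10) : ℝ) ≤ T := by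
      by_contra hcon
      exact hcap ⟨hTl, (not_le.1 hcon).le, hbb⟩
    apply big hb1
    rcases le_total w b with hwb' | hwb'
    · rw [max_eq_left hwb']
      have h1 : (1 : ℝ) ≤ (T / x ^ 2) ^ (1 / 100 : ℝ) := by
        refine Real.one_le_rpow ?_ (by norm_num)
        rw [one_le_div (by positivity)]
        calc x ^ 2 ≤ ((n : ℝ) ^ (-(1 / 10) : ℝ)) ^ 2 := by gcongr
          _ ≤ (n : ℝ) ^ (-(1 / 10) : ℝ) := by
            refine pow_le_of_le_one (Real.rpow_pos_of_pos hnp _).le ?_ (by norm_num)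
            exact Real.rpow_le_one_of_one_le_of_nonpos hnn (by norm_num)
          _ ≤ T := hTT
      have h2 := H_ge_s (T := T) hnp.le hx0 hxb zero_le_one h1
      rwa [mul_one] at h2
    · rw [max_eq_right hwb']
      have h1 := s_large (K := K) hnn l1 l3 hx0 (hxb.trans hwb') hTT
      have h2 := H_ge_s (T := T) hnp.le hx0 hxb (by positivity) h1
      refine le_trans ?_ h2
      have h3 : w ^ 5 ≤ b ^ 5 * Real.log n ^ (5 * K) := by
        have e1 : w ^ 5 = ((n : ℝ) ^ (-(1 / 6) : ℝ)) ^ 5 * Real.log n ^ (5 * K) := by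
          rw [hw, mul_pow, ← Real.rpow_natCast (Real.log n ^ K) 5, ← Real.rpow_mul hl0.le]
          norm_num
          ring_nf
          simp
        rw [e1]
        have h4 : (n : ℝ) ^ (-(1 / 6) : ℝ) ≤ b := hx.trans hxb
        gcongr
      calc (n : ℝ) * w ^ 5 ≤ n * (b ^ 5 * Real.log n ^ (5 * K)) := by gcongr
        _ = _ := by ring
  · apply big hb1
    rw [max_eq_left (hwb.trans hbb)]
    exact H_ge_big hnn hx0 hx1 hbb hTl

end H393

end Vale.Agent.P146.U
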