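import Vale.Agent.P146.U.AP
import Vale.Agent.P146.U.AP3
import Vale.Agent.P146.U.SelK

/-!
# P146, upper half, EX2: real numbers, and the caps of the selection region

Weight `H n x 6 (1/100) b T = n x⁴ b (b/x)⁵ (T/x²)^(1/100)` (file `SelK`). Outside the region
`n^(-4/5) ≤ T ≤ n^(-1/10)`, `b ≤ n^(-1/20)` the increments of the functional are at most a constant
times the weight: by the trivial bound `C n b T` and by `CgfU`.
-/

open MeasureTheory ProbabilityTheory Filter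

namespace Vale.Agent.P146.U.H393

open Vale.Agent.P146.U.SelK

variable {n x b T a : ℝ}

/-- the weight -/
lemma H_eq (hx : 0 < x) : H n x 6 (1 / 100) b T =
    n * x ^ 4 * b * (b / x) ^ 5 * (T / x ^ 2) ^ (1 / 100 : ℝ) := by
  unfold H
  field_simp

/-- `T ≤ (T / x²)^(1/100)` -/
lemma T_le_s (hx : 0 < x) (hx1 : x ≤ 1) (hT : 0 < T) (hT1 : T ≤ 1) :
    T ≤ (T / x ^ 2) ^ (1 / 100 : ℝ) := by
  have h1 : T ≤ T ^ (1 / 100 : ℝ) := by
    calc T = T ^ (1 : ℝ) := (Real.rpow_one T).symm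
      _ ≤ T ^ (1 / 100 : ℝ) := Real.rpow_le_rpow_of_exponent_ge hT hT1 (by norm_num)
  have h2 : T ≤ T / x ^ 2 := by
    rw [le_div_iff₀ (by positivity)]
    exact mul_le_of_le_one_right hT.le (pow_le_one₀ hx.le hx1)
  exact h1.trans (Real.rpow_le_rpow hT.le h2 (by norm_num))

/-- the weight is at least `x⁴` times the trivial bound -/
lemma H_ge_x4 (hn : 0 ≤ n) (hx : 0 < x) (hx1 : x ≤ 1) (hxb : x ≤ b) (hT : 0 < T) (hT1 : T ≤ 1) :
    x ^ 4 * (n * b * T) ≤ H n x 6 (1 / 100) b T := by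
  rw [H_eq hx]
  have h1 : 1 ≤ (b / x) ^ 5 := one_le_pow₀ ((one_le_div hx).2 hxb)
  have h2 := T_le_s hx hx1 hT hT1
  have hb : 0 < b := hx.trans_le hxb
  calc x ^ 4 * (n * b * T) = n * x ^ 4 * b * 1 * T := by ring
    _ ≤ n * x ^ 4 * b * (b / x) ^ 5 * (T / x ^ 2) ^ (1 / 100 : ℝ) := by gcongr

/-- the weight for `b ≥ 1` -/
lemma H_ge_b1 (hn : 0 ≤ n) (hx : 0 < x) (hx1 : x ≤ 1) (hb : 1 ≤ b) (hT : 0 < T) (hT1 : T ≤ 1) :
    n * b * T ≤ H n x 6 (1 / 100) b T := by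
  rw [H_eq hx]
  have h2 := T_le_s hx hx1 hT hT1
  have h3 : 1 ≤ x ^ 4 * (b / x) ^ 5 := by
    rw [div_pow, ← mul_div_assoc, one_le_div (by positivity)]
    have h4 : 1 ≤ b ^ 5 := one_le_pow₀ hb
    have h5 : x ^ 5 = x ^ 4 * x := by ring
    rw [h5]
    exact mul_le_mul_of_nonneg_left (hx1.trans h4) (by positivity)
  have hb0 : 0 < b := by linarith
  calc n * b * T = n * b * 1 * T := by ring
    _ ≤ n * b * (x ^ 4 * (b / x) ^ 5) * (T / x ^ 2) ^ (1 / 100 : ℝ) := by gcongr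
    _ = _ := by ring

/-- powers of `n`: the lower bound of a power of `x` -/
lemma x_pow_ge (hn : 0 < n) (hx : n ^ (-(1 / 6) : ℝ) ≤ x) {r : ℝ} (hr : 0 ≤ r) :
    n ^ (-(r / 6)) ≤ x ^ r := by
  have h0 : 0 < n ^ (-(1 / 6) : ℝ) := Real.rpow_pos_of_pos hn _
  have h1 := Real.rpow_le_rpow h0.le hx hr
  rw [← Real.rpow_mul hn.le] at h1
  refine le_trans (le_of_eq ?_) h1
  congr 1
  ring

/-- the weight for small `T` -/
lemma H_ge_low (hn : 1 ≤ n) (hx : n ^ (-(1 / 6) : ℝ) ≤ x) (hxb : x ≤ b)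
    (hT : 0 < T) (hT1 : T ≤ n ^ (-(4 / 5) : ℝ)) : n * b * T ≤ H n x 6 (1 / 100) b T := by
  have hn0 : 0 < n := by linarith
  have hx0 : 0 < x := lt_of_lt_of_le (Real.rpow_pos_of_pos hn0 _) hx
  have hb : 0 < b := hx0.trans_le hxb
  rw [H_eq hx0]
  have h1 : 1 ≤ (b / x) ^ 5 := one_le_pow₀ ((one_le_div hx0).2 hxb)
  have h2 : T ≤ x ^ 4 * (T / x ^ 2) ^ (1 / 100 : ℝ) := by
    have e1 : x ^ 4 * (T / x ^ 2) ^ (1 / 100 : ℝ) = x ^ (199 / 50 : ℝ) * T ^ (1 / 100 : ℝ) := by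
      rw [Real.div_rpow hT.le (by positivity), ← Real.rpow_natCast x 2, ← Real.rpow_natCast x 4,
        ← Real.rpow_mul hx0.le]
      rw [mul_div_assoc', div_eq_mul_inv, ← Real.rpow_neg hx0.le, mul_right_comm,
        ← Real.rpow_add hx0]
      norm_num
    have e2 : T = T ^ (99 / 100 : ℝ) * T ^ (1 / 100 : ℝ) := by
      rw [← Real.rpow_add hT]
      norm_num
    rw [e1]
    nth_rewrite 1 [e2]
    refine mul_le_mul_of_nonneg_right ?_ (Real.rpow_pos_of_pos hT _).le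
    have h3 := x_pow_ge hn0 hx (r := 199 / 50) (by norm_num)
    have h4 : T ^ (99 / 100 : ℝ) ≤ n ^ (-(4 / 5) * (99 / 100) : ℝ) := by
      rw [Real.rpow_mul hn0.le]
      exact Real.rpow_le_rpow hT.le hT1 (by norm_num)
    refine h4.trans (le_trans ?_ h3)
    exact Real.rpow_le_rpow_of_exponent_le hn (by norm_num)
  calc n * b * T ≤ n * b * (x ^ 4 * (T / x ^ 2) ^ (1 / 100 : ℝ)) := by gcongr
    _ = n * x ^ 4 * b * 1 * (T / x ^ 2) ^ (1 / 100 : ℝ) := by ring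
    _ ≤ _ := by gcongr

/-- the weight for `b ≥ n^(-1/20)` -/
lemma H_ge_big (hn : 1 ≤ n) (hx0 : 0 < x) (hx : x ≤ n ^ (-(1 / 10) : ℝ))
    (hb : n ^ (-(1 / 20) : ℝ) ≤ b) (hT : n ^ (-(4 / 5) : ℝ) ≤ T) :
    n * b ^ 5 ≤ H n x 6 (1 / 100) b T := by
  have hn0 : 0 < n := by linarith
  have hb0 : 0 < b := lt_of_lt_of_le (Real.rpow_pos_of_pos hn0 _) hb
  have hT0 : 0 < T := lt_of_lt_of_le (Real.rpow_pos_of_pos hn0 _) hT
  have hx1 : x ≤ 1 := hx.trans (Real.rpow_le_one_of_one_le_of_nonpos hn (by norm_num))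
  have h1 : n ^ (1 / 20 : ℝ) ≤ b / x := by
    rw [le_div_iff₀ hx0]
    calc n ^ (1 / 20 : ℝ) * x ≤ n ^ (1 / 20 : ℝ) * n ^ (-(1 / 10) : ℝ) := by gcongr
      _ = n ^ (-(1 / 20) : ℝ) := by rw [← Real.rpow_add hn0]; norm_num
      _ ≤ b := hb
  have h2 : n ^ (-(1 / 125) : ℝ) ≤ (T / x ^ 2) ^ (1 / 100 : ℝ) := by
    have h3 : T ≤ T / x ^ 2 := by
      rw [le_div_iff₀ (by positivity)]
      exact mul_le_of_le_one_right hT0.le (pow_le_one₀ hx0.le hx1)
    have h4 := Real.rpow_le_rpow (Real.rpow_pos_of_pos hn0 _).le (hT.trans h3)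
      (show (0 : ℝ) ≤ 1 / 100 by norm_num)
    rw [← Real.rpow_mul hn0.le] at h4
    refine le_trans (le_of_eq ?_) h4
    congr 1
    norm_num
  have h3 : 1 ≤ b / x * (T / x ^ 2) ^ (1 / 100 : ℝ) := by
    calc (1 : ℝ) ≤ n ^ (1 / 20 - 1 / 125 : ℝ) := Real.one_le_rpow hn (by norm_num)
      _ = n ^ (1 / 20 : ℝ) * n ^ (-(1 / 125) : ℝ) := by rw [← Real.rpow_add hn0]; norm_num
      _ ≤ _ := mul_le_mul h1 h2 (Real.rpow_pos_of_pos hn0 _).le (by positivity)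
  have e : H n x 6 (1 / 100) b T =
      n * b ^ 5 * (b / x * (T / x ^ 2) ^ (1 / 100 : ℝ)) := by
    unfold H
    field_simp
  rw [e]
  exact le_mul_of_one_le_right (by positivity) h3

/-- the weight for large `T`, `b ≥ x` -/
lemma H_ge_s (hn : 0 ≤ n) (hx0 : 0 < x) (hxb : x ≤ b) {L : ℝ} (hL : 0 ≤ L)
    (hs : L ≤ (T / x ^ 2) ^ (1 / 100 : ℝ)) : n * b ^ 5 * L ≤ H n x 6 (1 / 100) b T := by
  have hb0 : 0 < b := hx0.trans_le hxb
  have e : H n x 6 (1 / 100) b T =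
      n * b ^ 5 * (b / x * (T / x ^ 2) ^ (1 / 100 : ℝ)) := by
    unfold H
    field_simp
  rw [e]
  have h1 : 1 ≤ b / x := (one_le_div hx0).2 hxb
  have h2 : 0 ≤ (T / x ^ 2) ^ (1 / 100 : ℝ) := hL.trans hs
  refine mul_le_mul_of_nonneg_left ?_ (by positivity)
  nlinarith

/-- **The contradiction at the near maximiser** (real numbers). -/
lemma kfin {C M : ℝ} (hn : 0 < n) (hx : 0 < x) (hnx : 1 ≤ n * x ^ 6) (hxa : x ≤ a) (hT : 0 < T)
    (hC : 1 ≤ C) (hM : 0 < M) {Δ : ℝ}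
    (hΔ : M / 2 * H n x 6 (1 / 100) a T ≤ Δ)
    (h1 : Δ ≤ C * (a * n * T) * (a ^ 2 + 1 / √(n * T)))
    (h2 : T ≤ C * (a ^ 2 + 1 / √(n * T))) : M ≤ 8 * C ^ 2 := by
  obtain ⟨α, hα⟩ : ∃ α, α = a / x := ⟨_, rfl⟩
  obtain ⟨s, hs⟩ : ∃ s, s = T / x ^ 2 := ⟨_, rfl⟩
  have ha : a = α * x := by rw [hα]; field_simp
  have hTs : T = s * x ^ 2 := by rw [hs]; field_simp
  have hα1 : 1 ≤ α := by rw [hα]; exact (one_le_div hx).2 hxa
  have hs0 : 0 < s := by rw [hs]; positivity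
  have hα0 : 0 < α := by linarith
  set w := s ^ (1 / 100 : ℝ) with hw
  have hw0 : 0 < w := Real.rpow_pos_of_pos hs0 _
  have hr0 : 0 < √s := Real.sqrt_pos.2 hs0
  have hrs : √s ^ 2 = s := Real.sq_sqrt hs0.le
  -- the term `1 / √(n T)`
  have h3 : 1 / √(n * T) ≤ x ^ 2 * (1 / √s) := by
    have h4 : √s ≤ x ^ 2 * √(n * T) := by
      refine Real.sqrt_le_iff.2 ⟨by positivity, ?_⟩
      rw [mul_pow, Real.sq_sqrt (by positivity), hTs]
      nlinarith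
    have h5 : 0 < √(n * T) := Real.sqrt_pos.2 (by positivity)
    rw [mul_one_div, div_le_div_iff₀ h5 hr0]
    linarith
  have h4 : a ^ 2 + 1 / √(n * T) ≤ x ^ 2 * (α ^ 2 + 1 / √s) := by
    rw [ha]
    nlinarith
  have hx2 : 0 < x ^ 2 := by positivity
  have h5 : s ≤ C * (α ^ 2 + 1 / √s) := by
    have h6 : s * x ^ 2 ≤ C * (x ^ 2 * (α ^ 2 + 1 / √s)) := by
      rw [← hTs]
      exact h2.trans (mul_le_mul_of_nonneg_left h4 (by linarith))
    have h7 : s * x ^ 2 ≤ C * (α ^ 2 + 1 / √s) * x ^ 2 := by linarith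
    exact le_of_mul_le_mul_right h7 hx2
  have h6 : M / 2 * (α ^ 6 * w) ≤ C * (α * s * (α ^ 2 + 1 / √s)) := by
    have e1 : M / 2 * H n x 6 (1 / 100) a T = n * x ^ 5 * (M / 2 * (α ^ 6 * w)) := by
      unfold H
      rw [← hα, ← hs]
      ring
    have h7 : C * (a * n * T) * (a ^ 2 + 1 / √(n * T)) ≤
        C * (a * n * T) * (x ^ 2 * (α ^ 2 + 1 / √s)) := by
      refine mul_le_mul_of_nonneg_left h4 ?_
      rw [ha]
      positivity
    have e2 : C * (a * n * T) * (x ^ 2 * (α ^ 2 + 1 / √s)) =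
        n * x ^ 5 * (C * (α * s * (α ^ 2 + 1 / √s))) := by
      rw [ha, hTs]
      ring
    rw [e1] at hΔ
    rw [e2] at h7
    exact le_of_mul_le_mul_left ((hΔ.trans h1).trans h7) (by positivity)
  rcases le_total s 1 with hs1 | hs1
  · -- `s ≤ 1`
    have hr1 : √s ≤ 1 := Real.sqrt_le_one.2 hs1
    have h7 : √s ≤ w := by
      rw [Real.sqrt_eq_rpow, hw]
      exact Real.rpow_le_rpow_of_exponent_ge hs0 hs1 (by norm_num)
    have h8 : α * s * (α ^ 2 + 1 / √s) ≤ 2 * α ^ 3 * w := by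
      have e1 : α * s * (α ^ 2 + 1 / √s) = α ^ 3 * s + α * √s := by
        have : s * (1 / √s) = √s := by
          rw [mul_one_div, div_eq_iff hr0.ne', ← sq, hrs]
        calc α * s * (α ^ 2 + 1 / √s) = α ^ 3 * s + α * (s * (1 / √s)) := by ring
          _ = _ := by rw [this]
      have h9 : s ≤ √s := by
        calc s = √s * √s := by rw [← sq, hrs]
          _ ≤ 1 * √s := by gcongr
          _ = √s := one_mul _
      have h10 : α ≤ α ^ 3 := le_self_pow₀ hα1 (by norm_num)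
      rw [e1]
      have h11 : α ^ 3 * s ≤ α ^ 3 * w := mul_le_mul_of_nonneg_left (h9.trans h7) (by positivity)
      have h12 : α * √s ≤ α ^ 3 * w := mul_le_mul h10 h7 hr0.le (by positivity)
      linarith
    have h13 : M / 2 * (α ^ 6 * w) ≤ C * (2 * α ^ 3 * w) :=
      h6.trans (mul_le_mul_of_nonneg_left h8 (by linarith))
    have h14 : 0 < α ^ 3 * w := by positivity
    have h15 : M / 2 * α ^ 3 * (α ^ 3 * w) ≤ 2 * C * (α ^ 3 * w) := by
      calc M / 2 * α ^ 3 * (α ^ 3 * w) = M / 2 * (α ^ 6 * w) := by ring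
        _ ≤ _ := h13
        _ = _ := by ring
    have h16 := le_of_mul_le_mul_right h15 h14
    have h17 : M / 2 ≤ M / 2 * α ^ 3 := le_mul_of_one_le_right (by positivity) (one_le_pow₀ hα1)
    nlinarith
  · -- `s ≥ 1`
    have hr1 : 1 ≤ √s := Real.one_le_sqrt.2 hs1
    have h7 : 1 / √s ≤ 1 := by
      rw [div_le_one hr0]
      exact hr1
    have h8 : 1 ≤ α ^ 2 := one_le_pow₀ hα1
    have h9 : α ^ 2 + 1 / √s ≤ 2 * α ^ 2 := by linarith
    have h10 : s ≤ 2 * C * α ^ 2 := by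
      have := mul_le_mul_of_nonneg_left h9 (show 0 ≤ C by linarith)
      linarith
    have h11 : 1 ≤ w := Real.one_le_rpow hs1 (by norm_num)
    have h12 : α * s * (α ^ 2 + 1 / √s) ≤ α * (2 * C * α ^ 2) * (2 * α ^ 2) := by
      gcongr
    have h13 : M / 2 * α ^ 6 ≤ M / 2 * (α ^ 6 * w) := by
      refine mul_le_mul_of_nonneg_left ?_ (by positivity)
      exact le_mul_of_one_le_right (by positivity) h11
    have h14 : M / 2 * α ^ 6 ≤ C * (α * (2 * C * α ^ 2) * (2 * α ^ 2)) :=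
      h13.trans (h6.trans (mul_le_mul_of_nonneg_left h12 (by linarith)))
    have h15 : M / 2 * α * α ^ 5 ≤ 4 * C ^ 2 * α ^ 5 := by
      calc M / 2 * α * α ^ 5 = M / 2 * α ^ 6 := by ring
        _ ≤ _ := h14
        _ = _ := by ring
    have h16 := le_of_mul_le_mul_right h15 (by positivity)
    have h17 : M / 2 ≤ M / 2 * α := le_mul_of_one_le_right (by positivity) hα1
    linarith

end Vale.Agent.P146.U.H393
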