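import Vale.Agent.P146.U.AP
import Vale.Agent.P146.U.Ex1b

/-!
# P146, upper half, EX3: the bound for a small window

`F ↦ PP x a c s (W y r F)`: exponent `x`, then `a` on a block of variance `s²`, then `y` on a block
of variance `r²`. The gain from `x` to `a` on the middle block is at most
`(a - x) s² / ((y' - y) r²)` times the gain from `y` to `y'` on the last block
(`E |D_t|²` increases along the window).
-/

open MeasureTheory ProbabilityTheory

namespace Vale.Agent.P146.U.H393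

open Vale.Agent.P157.Lv Vale.Agent.P146 Vale.Agent.P146.H425 Vale.Agent.P146.R1
  Vale.Agent.P146.H332 Vale.Agent.P146.H325 Vale.Agent.P146.U

set_option linter.unusedSectionVars false

section general

variable {κ : Type} [Fintype κ] {F X : (κ → ℝ) → ℝ} {D : κ → (κ → ℝ) → ℝ}
  {B L x a y y' c s r : ℝ}

/-- upper bound of the gain of the middle block -/
theorem PP_drop_end (h : C11 X D B L) (hc : Cv X) (hx : 0 < x) (hxa : x ≤ a) :
    PP x a c s X ≤ PP x x c s X +
      (a - x) / 2 * s ^ 2 * EE x a c s X (Mn a s X fun w => ∑ e, D e w ^ 2) := by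
  have ha : 0 < a := hx.trans_le hxa
  have hl : Lip X := h.lip.lip h.B0
  have h1 := W_tan_le (U := W x s X) (U' := W a s X) (lipW h hx s) (lipW h ha s) hx
    (ψ := fun w => (a - x) / 2 * s ^ 2 * Mn a s X (fun w => ∑ e, D e w ^ 2) w)
    ((eg_Mn hl h.eg_G2 a s).const_mul _) (fun w => W_drop h hc hx hxa w) c 0
  refine h1.trans (le_of_eq ?_)
  rw [Mn_const_mul]
  rfl

/-- lower bound of the gain of the last block -/
theorem PP_last_ge (h : C11 F D B L) (hc : Cv F) (hx : 0 < x) (ha : 0 < a) (hy : 0 < y)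
    (hyy : y ≤ y') :
    PP x a c s (W y r F) + (y' - y) / 2 * r ^ 2 * EE x a c s (W y r F)
      (Mn a s (W y r F) fun w => ∑ e, DW y r F D e w ^ 2) ≤ PP x a c s (W y' r F) := by
  have hX := h.W' hy r
  have hX' := h.W' (hy.trans_le hyy) r
  have hl : Lip (W y r F) := lipW h hy r
  have hl' : Lip (W y' r F) := lipW h (hy.trans_le hyy) r
  have hpt : ∀ w, W y r F w + (y' - y) / 2 * r ^ 2 * (∑ e, DW y r F D e w ^ 2) ≤
      W y' r F w := by
    intro w
    have h1 := W_tangent (s := r) h hc hy (hy.trans_le hyy) w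
    have h2 := Kc_ge (s := r) h hy w
    have h3 : (y' - y) / y ^ 2 * (y ^ 2 / 2 * (r ^ 2 * G2 y r F D w)) ≤
        (y' - y) / y ^ 2 * Kc y r F w := by
      have : 0 ≤ y' - y := by linarith
      gcongr
    have e : (y' - y) / y ^ 2 * (y ^ 2 / 2 * (r ^ 2 * G2 y r F D w)) =
        (y' - y) / 2 * r ^ 2 * (∑ e, DW y r F D e w ^ 2) := by
      unfold G2
      field_simp
    rw [e] at h3
    have e2 : (y' - y) / y ^ 2 * Kc y r F w = (y' - y) * (Kc y r F w / y ^ 2) := by ring
    linarith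
  have h2 : ∀ w, W a s (W y r F) w + (y' - y) / 2 * r ^ 2 *
      Mn a s (W y r F) (fun w => ∑ e, DW y r F D e w ^ 2) w ≤ W a s (W y' r F) w := by
    intro w
    have h3 := W_tan_ge hl hl' ha (ψ := fun w => (y' - y) / 2 * r ^ 2 *
      (∑ e, DW y r F D e w ^ 2)) (hX.eg_G2.const_mul _) hpt s w
    rwa [Mn_const_mul] at h3
  have h3 := W_tan_ge (lipW hX ha s) (lipW hX' ha s) hx (ψ := fun w => (y' - y) / 2 * r ^ 2 *
      Mn a s (W y r F) (fun w => ∑ e, DW y r F D e w ^ 2) w)
      ((eg_Mn hl hX.eg_G2 a s).const_mul _) h2 c 0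
  refine le_trans (le_of_eq ?_) h3
  rw [Mn_const_mul]
  rfl

/-- **The small window.** -/
theorem PP_small (h : C11 F D B L) (hc : Cv F) (hx : 0 < x) (hxa : x ≤ a) (hy : 0 < y)
    (hyy : y ≤ y') :
    (y' - y) * r ^ 2 * (PP x a c s (W y r F) - PP x x c s (W y r F)) ≤
      (a - x) * s ^ 2 * (PP x a c s (W y' r F) - PP x a c s (W y r F)) := by
  have h1 := PP_drop_end (c := c) (s := s) (h.W' hy r) (Cv.W h hc hy r) hx hxa
  have h2 := PP_last_ge (c := c) (s := s) (r := r) h hc hx (hx.trans_le hxa) hy hyy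
  set E := EE x a c s (W y r F) (Mn a s (W y r F) fun w => ∑ e, DW y r F D e w ^ 2)
  have h3 : 0 ≤ (y' - y) * r ^ 2 := mul_nonneg (by linarith) (sq_nonneg r)
  have h4 : 0 ≤ (a - x) * s ^ 2 := mul_nonneg (by linarith) (sq_nonneg s)
  have h5 := mul_le_mul_of_nonneg_left h1 h3
  have h6 := mul_le_mul_of_nonneg_left h2 h4
  nlinarith

end general

/-! ### SK -/

variable {n : ℕ} {β x a y y' τ T : ℝ}

/-- **The small window**, for the functionals of the SK model. -/
theorem P3_small (hx : 0 < x) (hxa : x ≤ a) (hy : 0 < y) (hyy : y ≤ y') (hτ : 0 ≤ τ)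
    (hT : 0 ≤ T) :
    (y' - y) * τ * (P3 n β y τ x T a - P3 n β y τ x T x) ≤
      (a - x) * T * (P3 n β y' τ x T a - P3 n β y τ x T a) := by
  have h1 := PP_small (c := √(1 - τ - T)) (s := √T) (r := √τ) (AP.c11_Fsk n β) (AP.cv_Fsk n β)
    hx hxa hy hyy
  rw [Real.sq_sqrt hτ, Real.sq_sqrt hT] at h1
  exact h1

/-- The gain on a small window before a block of length `τ` with an exponent `y`, `2 y ≤ a`, is at
most `(a / y) (T / τ)` times the gain of the pure exponent `a`. -/
theorem P3_small' (hx : 0 < x) (hxy : x ≤ y) (hya : 2 * y ≤ a) (hτ : 0 < τ)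
    (hT : 0 ≤ T) :
    P3 n β y τ x T a - P3 n β y τ x T x ≤
      a / y * (T / τ) * (P2 n β x (τ + T) a - P2 n β x (τ + T) x) := by
  have hy : 0 < y := hx.trans_le hxy
  have ha : 0 < a := by linarith
  have h1 := P3_small (n := n) (β := β) (y' := 2 * y) hx (a := a) (by linarith) hy (by linarith)
    hτ.le hT
  have h2 : P3 n β (2 * y) τ x T a ≤ P3 n β a τ x T a :=
    AP.P3_mono_y hx (by linarith) ha hya
  rw [AP.P3_y ha hτ.le hT] at h2
  have h3 : P2 n β x (τ + T) x ≤ P3 n β y τ x T a := by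
    rw [← AP.P3_y hx hτ.le hT]
    exact (AP.P3_mono_y hx hx hx hxy).trans (AP.P3_mono_b hx hy hx (by linarith))
  have h4 : 0 ≤ (a - x) * T := mul_nonneg (by linarith) hT
  have h5 : 0 ≤ P2 n β x (τ + T) a - P2 n β x (τ + T) x :=
    sub_nonneg.2 (AP.P2_mono_b hx hx (by linarith))
  have h6 : (a - x) * T * (P3 n β (2 * y) τ x T a - P3 n β y τ x T a) ≤
      a * T * (P2 n β x (τ + T) a - P2 n β x (τ + T) x) :=
    (mul_le_mul_of_nonneg_left (sub_le_sub h2 h3) h4).trans
      (mul_le_mul_of_nonneg_right (mul_le_mul_of_nonneg_right (by linarith) hT) h5)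
  have h7 := h1.trans h6
  rw [show 2 * y - y = y by ring] at h7
  have h8 : 0 < y * τ := mul_pos hy hτ
  rw [div_mul_div_comm, div_mul_eq_mul_div, le_div_iff₀ h8]
  linarith

end Vale.Agent.P146.U.H393
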